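import Vale.Agent.P352R.Tg.Lg
import Vale.Agent.P352R.Tw.Td
import Vale.Agent.P352R.Tw.Sp
import Vale.Agent.P352R.Cf.All

/-!
# P352R, block Tg: a linearly bounded subtheory gives a graded local algebra (helper85)
-/

set_option autoImplicit false
set_option linter.all false

noncomputable section

namespace Vale.Agent.P352R.Tg

open P352 GF P352R.P P352R.G P352W.Net P352X.EG.Wb Le L22
open UniformSpace (Completion)

variable {D : Type*} [NormedAddCommGroup D] [InnerProductSpace ℂ D] {Q R : Theory D} {G : D → D}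
  {A : (V → V) → D → D}

/-- **a subtheory with linear energy bounds gives a graded local algebra** -/
theorem sub (g : Gr Q G) (g' : Gr R G) (s : IsEnl R Q) (vac : G Q.vac = Q.vac)
    (add : ∀ r r' (c : ℝ) X X' v, IsSim r X → IsSim r' X' →
      A (fun z => X z + c • X' z) v = A X v + (c : ℂ) • A X' v) (der : Gnr Q A)
    (h : CntF R ∨ MfA R ∧ FSL R) (l : LEB R) (e : EBd Q) :
    ∃ Γ N, LNg R G A Γ N ∧ ∀ O ∈ nhds 0, Bornology.IsBounded O → ∃ M, Lg1 Q G A Γ O M := by
  have der' : Gnr R A := by unfold Gnr at *; rw [← s.U]; exact der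
  obtain ⟨Γ, n⟩ := lngN g' (s.vac ▸ vac) add der' h l
  have m : MfA R := h.elim (fun c => Br.mfa.2 (Cf.cfg_all R G A Γ _ (Br.lng.1 n) c).1) And.left
  refine ⟨Γ, _, n, fun O a b => ⟨_, lg1 g s der n l (fun a b X x y z => Tw.td n m x y z X)
    (fun B hB f hf => ?_) a b⟩⟩
  obtain ⟨k, c⟩ := e B hB
  obtain ⟨C, c⟩ := c f hf
  obtain ⟨C', p, q⟩ := Tw.en_le (dr der) k
  have d : dL (dr der) = dL (dr n.der) := LinearMap.ext fun w => by
    show H246.Dv Q o w = H246.Dv R o w
    unfold H246.Dv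
    rw [s.U]
  refine ⟨k, |C| * C', by positivity, fun v => (c v).trans ?_⟩
  rw [← d, mul_assoc]
  exact (mul_le_mul_of_nonneg_right (le_abs_self C) (Br.en_eq Q k v ▸ H246.en_nonneg k v)).trans
    (mul_le_mul_of_nonneg_left (q v) (abs_nonneg C))

end Vale.Agent.P352R.Tg
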