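import Vale.Agent.P352H.Rep
import Vale.Agent.P352X.CG.FS
import Vale.Agent.P352R.Br3

/-!
# P352R, block Tg: the generators of a graded theory on the domain generated by the fields (helper85)
-/

set_option autoImplicit false
set_option linter.all false

noncomputable section

open Filter Topology SchwartzMap Complex
open scoped SchwartzMap

namespace Vale.Agent.P352R.Tg

open Vale.Agent.P352 Vale.Agent.P352.GF Vale.Agent.P352.H746 Vale.Agent.P352.H15
open Vale.Agent.P352.H246 Vale.Agent.P352.H496 Vale.Agent.P352W.Rp Vale.Agent.P352X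
open Vale.Agent.P352H

variable {D : Type*} [NormedAddCommGroup D] [InnerProductSpace ℂ D]

/-- **The similitudes are differentiable on the domain that is generated by the fields.** -/
theorem gd_all (Q : Theory D) (mul : Fss.G.M1 Q)
    (gen : ∀ S : Submodule ℂ D, Q.vac ∈ S →
      (∀ A f v, Q.fld A → GF.IsTest f → v ∈ S → A f v ∈ S) → S = ⊤)
    (hM : MfAll Q) (hF : FSL Q) (w : D) : Gd Q w := by
  have o := H496.isLor_one
  let S : Submodule ℂ D :=
    { carrier := {v | Gd Q v}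
      add_mem' := fun hv hw => Gd.add hv hw
      zero_mem' := gd_inv fun s L a hs hL => by
        obtain ⟨u, hu⟩ := U_lin (Q := Q) hs hL a
        rw [hu, map_zero]
      smul_mem' := fun c _ hv => Gd.smul hv c }
  refine (gen S (gd_inv Q.U_vac) fun B f v hB hf hv => ?_).ge Submodule.mem_top
  obtain ⟨n, E, h2, h3⟩ := hM B hB
  rw [h3 f v hf]
  refine sum_mem fun i _ => ?_
  obtain ⟨k, Φ, c, hΦ, e⟩ := h2 i
  rw [e]
  choose F C hC using fun b => hF _ (hΦ.1 b)
  refine gd_fld (ι := Σ b, F b) (B := fun p => C p.1 p.2) (fun p => ((hC p.1).1 _).1)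
    (fun s L p => k.ρ L p.1 c * ((s : ℂ) ^ (4 - p.2.1.1) * (Real.log s : ℂ) ^ p.2.1.2))
    (fun X p => (∑ m, ∑ n, wX X m n * k.S m n p.1 c) * 0 ^ p.2.1.2 + k.ρ GF.one p.1 c *
      ((4 - p.2.1.1) * rX X * 0 ^ p.2.1.2 + p.2.1.2 * 0 ^ (p.2.1.2 - 1) * rX X))
    (fun s L a X p K => ?_) (fun X X' t p => ?_) (fun s L a f v hs hL hf => ?_) hf hv
  · have d1 := k.der L _ p.1 c K.1.L0 K.1.lor K.1.dL
    have d0 := K.1.ds.ofReal_comp
    have d2 : HasDerivAt (fun e => (s e : ℂ) ^ (4 - p.2.1.1)) ((4 - p.2.1.1) * rX X) 0 := by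
      have := (Complex.hasStrictDerivAt_cpow_const (c := 4 - p.2.1.1) (x := (s 0 : ℂ))
        (by rw [K.1.s0]; simp)).hasDerivAt.scomp (h := fun e => (s e : ℂ)) (0 : ℝ) d0
      refine this.congr_deriv ?_
      rw [K.1.s0]
      simp [mul_comm]
    have d3 := ((K.1.ds.log (K.1.sp 0).ne').ofReal_comp).fun_pow p.2.1.2
    refine (d1.fun_mul (d2.fun_mul d3)).congr_deriv ?_
    simp [K.1.s0, K.1.L0]
  · simp only [rX_add, wX_add, ofReal_add, ofReal_mul, add_mul, Finset.sum_add_distrib, mul_assoc,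
      ← Finset.mul_sum]
    ring
  · have e1 : ∀ z, Q.U s L a z = Q.U 1 GF.one a (Q.U 1 L 0 (Q.U s GF.one 0 z)) := fun z => by
      have l : (fun m => sim 1 L 0 (GF.one m)) = L := by
        funext m n
        simp [sim, GF.one, bas]
      rw [mul _ _ _ _ _ _ _ one_pos hs hL o (.inr rfl), l,
        mul _ _ _ _ _ _ _ one_pos (by simpa) o hL (.inl rfl), one_mul,
        one_mul]
      congr 1
      · funext m n
        simp [sim, GF.one, bas]
      · funext n
        simp [sim]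
    have e2 : ∀ x, sim 1 GF.one a (sim 1 L 0 (sim s GF.one 0 x)) = sim s L a x := fun x => by
      funext n
      simp [sim, GF.one, bas, Finset.mul_sum, mul_assoc]
    have t1 := tsim one_pos o a hf
    have t2 := tsim one_pos hL 0 t1
    obtain ⟨u, hu⟩ := U_lin (Q := Q) one_pos o a
    obtain ⟨u', hu'⟩ := U_lin (Q := Q) one_pos hL 0
    rw [e1, Q.transl _ a f _ (hΦ.1 c) hf, hΦ.2 c L _ _ hL t1, Fintype.sum_sigma]
    simp only [fun b => (hC b).2 s _ v hs t2, e1 (C _ _ _ _), e2]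
    simp only [hu, hu', map_sum, map_smul, Finset.smul_sum, smul_smul]
    exact Finset.sum_congr rfl fun b _ => (Finset.sum_coe_sort _ _).symm

theorem gen {Q : Theory D} {G : D → D} (g : P.Gr Q G)
    (c : ∀ S : Submodule ℂ D, Q.vac ∈ S →
      (∀ A f v, Q.fld A → GF.IsTest f → v ∈ S → A f v ∈ S) → S = ⊤)
    (m : P.MfA Q) (f : P.FSL Q) : ∃ A : (V → V) → D → D,
      (∀ r r' (c : ℝ) X X' v, P.IsSim r X → P.IsSim r' X' →
        A (fun z => X z + c • X' z) v = A X v + (c : ℂ) • A X' v) ∧ P.Gnr Q A := by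
  have h := gd_all Q (Fss.G.m1_gr (Br.gr.1 g)) c (Br.mfa.1 m) f
  choose Y h1 h2 using id h
  refine ⟨fun X v => I • Y v X, fun r r' t X X' v hX hX' => ?_,
    fun s L a X v s0 L0 a0 hp hX => ?_⟩
  · beta_reduce
    rw [h1 v r r' t X X' hX hX', smul_add, smul_comm I]
  · have K := cur s0 L0 a0 hp hX
    obtain ⟨x, h3, h4⟩ := h2 v s L a X K
    rw [smul_smul, I_mul_I, neg_one_smul]
    exact der_of h K h3 h4

end Vale.Agent.P352R.Tg
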