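import Vale.Agent.P352R.Le.Net2
import Vale.Agent.P352R.L22.Ab
import Vale.Agent.P352X.Api2d

/-!
# P352R, block Tg: polynomially bounded operators and the net of a subtheory (helper85)
-/

set_option autoImplicit false
set_option linter.all false

noncomputable section

namespace Vale.Agent.P352R.Tg

open P352 GF P352R.P P352R.G P352W.Net P352X.EG.Wb Le L22
open UniformSpace (Completion)
open Complex (I)
open scoped InnerProductSpace

variable {D : Type*} [NormedAddCommGroup D] [InnerProductSpace ℂ D] {Q R : Theory D} {G : D → D}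
  {Γ : Completion D →L[ℂ] Completion D} {S O : Set V} {P P' : D → D} {B B' : Fld D} {f : Fn}

theorem U0 (u : D) : H246.U1 R ((0 : ℝ) • eb o) u = u := by rw [zero_smul]; exact H755.Uone u

theorem bb (f : Fn) : bar (bar f) = f := funext fun _ => star_star _

theorem adj' (ad : P352R.P.IsAdj B B') : P352R.P.IsAdj B' B := fun f v w hf => by
  rw [← inner_conj_symm, ← inner_conj_symm v, ad (bar f) w v (P352X.Ap.test_bar hf), bb]

/-- the hermitian parts of the fields -/
def Cl (R : Theory D) (S : Set V) (X : Module.End ℂ D) : Prop := ∃ B B' f, ∃ c : ℂ, R.fld B ∧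
  R.fld B' ∧ P352R.P.IsAdj B B' ∧ In S f ∧ ∀ v, X v = c • B f v + star c • B' (bar f) v

/-- the hermitian part -/
def hp (ad : P352R.P.IsAdj B B') (hf : IsTest f) (c : ℂ) : Module.End ℂ D :=
  c • lin (B f) _ (fun v w => ad f v w hf) +
    star c • lin (B' (bar f)) _ fun v w => adj' ad _ v w (P352X.Ap.test_bar hf)

theorem Cl.sy {X : Module.End ℂ D} (x : Cl R S X) : Sy X := fun v w => by
  obtain ⟨B, B', f, c, -, -, ad, hf, e⟩ := x
  have := adj' ad _ v w (P352X.Ap.test_bar hf.1)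
  rw [bb] at this
  rw [e, e, inner_add_left, inner_add_right, inner_smul_left, inner_smul_left, inner_smul_right,
    inner_smul_right, ad f v w hf.1, this, add_comm]
  simp

theorem Cl.cm {X : Module.End ℂ D} (x : Cl R S X) {C : Module.End ℂ D}
    (c : ∀ B f v, R.fld B → In S f → B f (C v) = C (B f v)) (v : D) : X (C v) = C (X v) := by
  obtain ⟨B, B', f, z, a, b, ad, hf, e⟩ := x
  rw [e, e, map_add, map_smul, map_smul, c B f v a hf, c B' _ v b (in_bar hf)]

theorem st0 : ∀ g ∈ RR (Cl R S), star g ∈ RR (Cl R S) := rr_star fun _ a => a.sy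

theorem gnr (r : Dr R) : Gn (dL r) :=
  gn_of (U := fun t => H246.U1 R (t • eb o)) (fun _ _ => H246.U1_norm _ _)
    (fun s t v => by rw [H496.U1_U1_all, add_smul]) U0 (fun v => hd Completion.toComplL (r o v))
    (fun t v => by
      rw [eq_sub_iff_add_eq]
      show _ + H246.Dv _ _ _ = _
      rw [Dv_U r, ← H246.U1_add]
      exact congrArg _ (sub_add_cancel _ _))
    fun v w => by rw [← ii (dL r v), ← ii v, (st r).skew]

theorem bk1 (r : Dr R) (e : LEB R) (hB : R.fld B) (hf : In S f) : Bk (dL r) 1 (B f) := by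
  obtain ⟨A, -, -, k, -, -, ⟨C, c⟩, -⟩ := t2 r e hB hf
  refine ⟨|C|, abs_nonneg C, fun v => ?_⟩
  have := c v
  rw [ni, ni, k] at this
  rw [pow_one]
  exact this.trans (mul_le_mul_of_nonneg_right (le_abs_self C) (norm_nonneg _))

theorem gdf (r : Dr R) (l : LEB R) (hB : R.fld B) (ad : P352R.P.IsAdj B B') (hf : In S f) :
    Gd (dL r) (lin (B f) _ fun v w => ad f v w hf.1) := by
  have t (n : ℕ) : In Set.univ ((pd o)^[n] f) := by
    induction n with
    | zero => exact P352X.Ap.in_univ' hf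
    | succ n ih => rw [Function.iterate_succ_apply']; exact P352X.Ap.in_pd o ih
  refine ⟨fun n => ((-1 : ℂ) ^ n) • lin (B ((pd o)^[n] f)) _ fun v w => ad _ v w (t n).1, ?_,
    fun n => ⟨(bk1 r l hB (t n)).smul _, fun v => ?_⟩⟩
  · exact LinearMap.ext fun v => one_smul _ _
  · show dL r ((-1 : ℂ) ^ n • B _ v) =
      (-1 : ℂ) ^ n • B _ (H246.Dv R o v) + (-1 : ℂ) ^ (n + 1) • B _ v
    rw [map_smul, Function.iterate_succ_apply', show dL r (B _ v) = _ from Dv_fld r o hB (t n).1 v,
      pow_succ, smul_add, mul_neg_one, neg_smul, smul_neg, add_comm]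

theorem clg (r : Dr R) (l : LEB R) {X : Module.End ℂ D} (x : Cl R S X) : Sy X ∧ Gd (dL r) X :=
  ⟨x.sy, by
    obtain ⟨B, B', f, c, a, b, ad, hf, e⟩ := x
    rw [show X = hp ad hf.1 c from LinearMap.ext e]
    exact ((gdf r l a ad hf).smul c).add ((gdf r l b (adj' ad) (in_bar hf)).smul _)⟩

/-- **polynomially bounded operators that commute with the fields commute weakly with the net** -/
theorem af (r : Dr R) (l : LEB R) (a : Ad P P') {k : ℕ} (b : Bk (dL r) k P)
    (c : ∀ B f v, R.fld B → In S f → B f (P v) = P (B f v)) : ∀ Y ∈ N R S, Wc ι P P' Y :=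
  fun Y hY => L22.aff (C := a.L) (S := Cl R S) (gnr r) (fun _ x => clg r l x) b a
    (fun Z x => x.cm (C := a.L) c) (mem_vn.2 fun Z hZ => (mem_cmt ws_star).1 hY Z
      fun B f P' hB hf q v w => by
    obtain ⟨B', hB', ad⟩ := R.adj B hB
    obtain rfl : P' = B' (bar f) := funext fun w => ext_inner_left ℂ fun v => by
      rw [← q, ad f v w hf.1]
    rw [mem_cmt st0] at hZ
    have k (z : ℂ) : Wk (hp ad hf.1 z) Z := by
      have x : Cl R S (hp ad hf.1 z) := ⟨B, B', f, z, hB, hB', ad, hf, fun v => rfl⟩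
      obtain ⟨n, T, t, -⟩ := ex_res (gnr r) x.sy (clg r l x).2 0
      exact t.wk x.sy (hZ T ⟨_, n, x, t⟩)
    have e (z : ℂ) (v : D) : hp ad hf.1 z v = z • B f v + star z • B' (bar f) v := rfl
    have k1 := k 1 v w
    have k2 := k I v w
    simp only [e, Completion.coe_add, Completion.coe_smul, map_add, map_smul, inner_add_left,
      inner_add_right, inner_smul_left, inner_smul_right, RCLike.star_def, map_one, Complex.conj_I,
      map_neg, one_mul] at k1 k2
    show ⟪((B' (bar f) w : D) : Completion D), Z v⟫_ℂ = ⟪(w : Completion D), Z (B f v : D)⟫_ℂ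
    linear_combination (1 / 2 : ℂ) * k1 - (I / 2) * k2 + (1 / 2 : ℂ) *
      (inner ℂ ((B' (bar f) w : D) : Completion D) (Z v) -
        inner ℂ (w : Completion D) (Z (B f v : D)) - inner ℂ ((B f w : D) : Completion D) (Z v) +
        inner ℂ (w : Completion D) (Z (B' (bar f) v : D))) * Complex.I_mul_I)

theorem dG (g : Gr R G) (r : Dr R) (v : D) : dL r (G v) = G (dL r v) :=
  ext_inner_left ℂ fun z => by
    have h1 := (hasDerivAt_const (0 : ℝ) z).inner ℂ (r o (G v))
    have h2 := (hasDerivAt_const (0 : ℝ) (G z)).inner ℂ (r o v)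
    rw [inner_zero_left, add_zero] at h1 h2
    simp only [H246.U1, g.GU _ _ _ _ one_pos isLor_one, ← g.herm] at h1 h2
    exact (h1.unique h2).trans (g.herm _ _)

theorem nG (g : Gr R G) (v : D) : ‖G v‖ = ‖v‖ := by
  rw [norm_eq_sqrt_re_inner (𝕜 := ℂ), norm_eq_sqrt_re_inner (𝕜 := ℂ) v, g.herm, g.inv]

theorem bkG (g : Gr R G) (r : Dr R) {k : ℕ} (b : Bk (dL r) k P) : Bk (dL r) k fun v => P (G v) := by
  obtain ⟨C, p, q⟩ := b
  have e : ∀ (k : ℕ) v, ((1 - dL r) ^ k) (G v) = G (((1 - dL r) ^ k) v) := fun k v => by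
    induction k with
    | zero => rfl
    | succ k ih => rw [ks, ks, ih, dG g]; exact ((Ad.L g.herm).map_sub _ _).symm
  exact ⟨C, p, fun v => (q _).trans (by rw [e, nG g])⟩

theorem cmF (g : Gr Q G) {C : Fld D} {h : Fn} (c : Fer Q G C) (hB : Q.fld B) (hf : IsTest f)
    (hh : IsTest h) (s : Sep f h) (v : D) : B h (C f (G v)) = C f (G (B h v)) := by
  obtain ⟨E, -, a⟩ := fad c.1
  have a2 := a f hf
  obtain ⟨F, F', x, x', sp⟩ := g.split B hB
  have l1 : ∀ x y, G (x + y) = G x + G y := (Ad.L g.herm).map_add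
  have l2 : ∀ x y, C f (x + y) = C f x + C f y := a2.L.map_add
  have l3 : ∀ x, C f (-x) = -C f x := a2.L.map_neg
  have l4 := x'.2 h v hh
  rw [← neg_eq_iff_eq_neg] at l4
  rw [sp h _ hh, sp h _ hh, l1, l2, ← g.bose F h v x hh, ← l4, l3,
    Q.loc F C h f _ x c.1 hh hf (P352X.Ap.sep_symm s), g.anti C F' f h _ c x' hf hh s, neg_neg]

/-- even elements, and odd elements times the grading, commute weakly with all fields of `Q` -/
theorem af2 (g : Gr Q G) (g' : Gr R G) (sub : IsEnl R Q) (ex : ∀ v : D, Γ v = (G v : D))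
    (r : Dr R) (l : LEB R)
    (b : ∀ B, Q.fld B → ∀ f, In Set.univ f → ∃ k, Bk (dL r) k (B f))
    {Y Z : Completion D →L[ℂ] Completion D} (m1 : Y ∈ N R (cc O)) (m2 : Z ∈ N R (cc O))
    (he : Γ * Y = Y * Γ) (hk : Γ * Z = -(Z * Γ)) (hB : Q.fld B) (hf : In O f) (ad : Ad (B f) P') :
    Wc ι (B f) P' Y ∧ Wc ι (B f) P' (Z * Γ) := by
  have gg : ∀ x, Γ * (Γ * x) = x := fun x => by rw [← mul_assoc, Lg.g2 g ex, one_mul]
  have ex' : ∀ v, ι (G v) = Γ (ι v) := fun v => (ex v).symm
  obtain ⟨C, C', c, c', sp⟩ := g.split B hB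
  obtain ⟨E, hE, a1⟩ := fad (Q.bose_fld _ c)
  obtain ⟨E', hE', a2⟩ := fad c'.1
  have a1 := a1 f hf.1
  have a2 := a2 f hf.1
  have e' : ∀ w, P' w = E (bar f) w + E' (bar f) w := fun w => ext_inner_left ℂ fun v => by
    rw [← ad, sp f v hf.1, inner_add_left, inner_add_right, a1, a2]
  have s : ∀ h, In (cc O) h → Sep f h := fun h hh x hx y hy => hh.2.2 hy x (hf.2.2 hx)
  obtain ⟨n1, b1⟩ := b C (Q.bose_fld _ c) f (P352X.Ap.in_univ' hf)
  obtain ⟨n2, b2⟩ := b C' c'.1 f (P352X.Ap.in_univ' hf)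
  have k1 := af (S := cc O) r l a1 b1 fun B' h v hB' hh =>
    (Q.loc C B' f h v c (sub.fld _ hB') hf.1 hh.1 (s h hh)).symm
  have k2 := af (S := cc O) (P := fun v => C' f (G v)) (P' := fun v => G (E' (bar f) v)) r l
    (fun v w => by rw [a2, g.herm]) (bkG g' r b2) fun B' h v hB' hh =>
      cmF g c' (sub.fld _ hB') hf.1 hh.1 (s h hh) v
  refine ⟨fun v w => ?_, fun v w => ?_⟩
  · have q := k2 Y m1 (G v) w
    simp only [g.inv] at q
    rw [ex', ex', ← sg g ex, ← ContinuousLinearMap.mul_apply Y, ← he,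
      ← ContinuousLinearMap.mul_apply, gg] at q
    rw [e', sp f v hf.1, map_add, map_add, map_add, inner_add_left, inner_add_right,
      k1 Y m1 v w, q]
  · have q := k2 Z m2 v w
    have q' := k1 Z m2 (G v) w
    simp only [c'.2 f v hf.1] at q
    rw [ex', ← sg g ex, ← ContinuousLinearMap.mul_apply, hk, map_neg, map_neg, ex',
      ContinuousLinearMap.neg_apply, inner_neg_right, inner_neg_right, neg_inj] at q
    rw [g.bose C f v c hf.1, ex', ex'] at q'
    rw [e', sp f v hf.1, map_add, map_add, map_add, inner_add_left, inner_add_right, q]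
    exact congrArg (· + _) q'

end Vale.Agent.P352R.Tg
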