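import Vale.Agent.P352R.Tg.Af
import Vale.Agent.P352X.EG.SG

/-!
# P352R, block Tg: the twisted dual algebra of a subtheory (helper85)
-/

set_option autoImplicit false
set_option linter.all false

noncomputable section

namespace Vale.Agent.P352R.Tg

open P352 GF P352R.P P352R.G P352W.Net P352X.EG.Wb Le L22
open UniformSpace (Completion)
open scoped InnerProductSpace

section alg

variable {H : Type*} [NormedAddCommGroup H] [InnerProductSpace ℂ H] [CompleteSpace H]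
  {Γ X Y Z : H →L[ℂ] H} {M : VonNeumannAlgebra H}

/-- the twisted elements -/
def tw (Γ : H →L[ℂ] H) (M : VonNeumannAlgebra H) : Set (H →L[ℂ] H) :=
  {Z | ∃ X ∈ M, Z = X + Γ * X * Γ ∨ Z = (X - Γ * X * Γ) * Γ}

variable (g2 : Γ * Γ = 1)
include g2

theorem gg (x : H →L[ℂ] H) : Γ * (Γ * x) = x := by rw [← mul_assoc, g2, one_mul]

theorem ev (X : H →L[ℂ] H) : Γ * (X + Γ * X * Γ) = (X + Γ * X * Γ) * Γ := by
  simp only [mul_add, add_mul, mul_assoc, gg g2, g2, mul_one]; abel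

theorem od (X : H →L[ℂ] H) : Γ * ((X - Γ * X * Γ) * Γ) = -((X - Γ * X * Γ) * Γ * Γ) := by
  simp only [mul_sub, sub_mul, mul_assoc, gg g2, g2, mul_one]; abel

theorem tw_star (gs : star Γ = Γ) : ∀ Z ∈ tw Γ M, star Z ∈ tw Γ M := by
  rintro _ ⟨X, m, rfl | rfl⟩
  · exact ⟨_, star_mem m, .inl (by simp only [star_add, star_mul, gs, mul_assoc])⟩
  · refine ⟨_, neg_mem (star_mem m), .inr ?_⟩
    simp only [star_sub, star_mul, gs, mul_sub, sub_mul, mul_assoc, mul_neg, neg_mul, gg g2, g2,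
      mul_one]
    abel

theorem tw_gam (h : ∀ Z ∈ tw Γ M, Z * X = X * Z) : ∀ Z ∈ tw Γ M, Z * (Γ * X * Γ) = Γ * X * Γ * Z :=
  fun Z hZ => by
    have c := h Z hZ
    obtain ⟨Y, -, rfl | rfl⟩ := hZ
    · rw [← mul_assoc, ← mul_assoc, ← ev g2, mul_assoc Γ, c, mul_assoc, mul_assoc, ← ev g2]
      simp only [mul_assoc]
    · have e := od g2 Y
      generalize (Y - Γ * Y * Γ) * Γ = K at *
      rw [← mul_assoc, ← mul_assoc, neg_eq_iff_eq_neg.1 e.symm, neg_mul, mul_assoc Γ, c, neg_mul,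
        mul_assoc, mul_assoc, mul_assoc, mul_assoc, e, mul_neg, mul_neg]

theorem tw_cm (h : ∀ Z ∈ tw Γ M, Z * X = X * Z) :
    X + Γ * X * Γ ∈ M.commutant ∧ (X - Γ * X * Γ) * Γ ∈ M.commutant :=
  have k := fun Y (m : Y ∈ M) => Lg.tw_symm g2 (h _ ⟨Y, m, .inl rfl⟩) (h _ ⟨Y, m, .inr rfl⟩)
  ⟨VonNeumannAlgebra.mem_commutant_iff.2 fun Y m => (k Y m).1.symm,
    VonNeumannAlgebra.mem_commutant_iff.2 fun Y m => (k Y m).2.symm⟩

theorem half {K : VonNeumannAlgebra H} (h : X + X ∈ K) : X ∈ K := by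
  have := K.toStarSubalgebra.smul_mem h (2⁻¹ : ℂ)
  rwa [← two_smul ℂ X, smul_smul, inv_mul_cancel₀ two_ne_zero, one_smul] at this

/-- the Klein transformation -/
theorem klein (gs : star Γ = Γ) (gm : ∀ X ∈ M, Γ * X * Γ ∈ M) (h : Y ∈ (cmt (tw Γ M)).commutant) :
    Y + Γ * Y * Γ ∈ M ∧ (Y - Γ * Y * Γ) * Γ ∈ M := by
  have k : ∀ Z ∈ tw Γ M.commutant, Z * Y = Y * Z := fun Z ⟨T, t, e⟩ =>
    VonNeumannAlgebra.mem_commutant_iff.1 h Z ((mem_cmt (tw_star g2 gs)).2 fun K ⟨X, m, e'⟩ => by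
      have c := fun X m => VonNeumannAlgebra.mem_commutant_iff.1 t X m
      have c1 := c X m
      have c2 := c _ (gm X m)
      have c3 : ∀ x, X * (T * x) = T * (X * x) := fun x => by rw [← mul_assoc, c1, mul_assoc]
      have c4 : ∀ x, Γ * (X * (Γ * (T * x))) = T * (Γ * (X * (Γ * x))) := fun x => by
        simpa only [mul_assoc] using congrArg (· * x) c2
      have c5 : ∀ x, X * (Γ * (T * x)) = Γ * (T * (Γ * (X * (Γ * x)))) := fun x => by
        rw [← c4, gg g2]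
      have c6 := c5 1
      rw [mul_one, mul_one] at c6
      rcases e with rfl | rfl <;> rcases e' with rfl | rfl <;>
      · simp only [mul_add, add_mul, mul_sub, sub_mul, mul_assoc, gg g2, g2, mul_one, c1, c3, c5, c6]
        abel)
  simpa only [VonNeumannAlgebra.commutant_commutant] using tw_cm g2 k

end alg

variable {D : Type*} [NormedAddCommGroup D] [InnerProductSpace ℂ D] {Q R : Theory D} {G : D → D}
  {A : (V → V) → D → D} {Γ : Completion D →L[ℂ] Completion D} {O W W' : Set V}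
  {𝒩 : Set V → VonNeumannAlgebra (Completion D)}

theorem gs (g : Gr R G) (ex : ∀ v : D, Γ v = (G v : D)) : star Γ = Γ :=
  ((ContinuousLinearMap.eq_adjoint_iff _ _).2 fun x y => (sg g ex x y).symm).symm

theorem tr (h : LNg R G A Γ 𝒩) (sp : ∀ x ∈ W, ∀ z ∈ W', mdot (x - z) (x - z) < 0)
    {X : Completion D →L[ℂ] Completion D} (x : X ∈ Trf R O (cmt (tw Γ (𝒩 (cc O)))) W) :
    ∀ Z ∈ tw Γ (𝒩 W'), Z * X = X * Z := by
  obtain ⟨s, L, y, X0, m, hs, hL, le, e⟩ := Lg.mem_trf.1 x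
  have g2 := Lg.g2 h.toGr h.ext
  have u1 := Lg.W_star (Q := R) h.toGr hs hL y
  have u2 := Lg.star_W (Q := R) hs hL y
  have gU := Lg.gW h.toGr h.ext hs hL y
  have k : ∀ Y ∈ 𝒩 W', star (Lg.W R hs hL y) * Y * Lg.W R hs hL y ∈ 𝒩 (cc O) := fun Y hY => by
    let c : P352X.EG.Cg D := ⟨R, G, A, Γ, 𝒩, Br.lng.1 h⟩
    let g : P352X.EG.Sh c := ⟨⟨s, L, y, hs, hL⟩, false⟩
    have e : g.U c = Lg.W R hs hL y := ContinuousLinearMap.ext (P352X.Ug_apply R hs hL y)
    refine h.mono (g.act ⁻¹' W') (cc O) (fun t ht x hx => ?_) _ (((P352X.EG.sg_row c).alg g _ _).2 ?_)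
    · have a := sp _ (le ⟨x, hx, rfl⟩) _ ht
      have cf := P352X.conf_sim hs hL
      rw [show sim s L y x - g.act t = sim s L 0 (x - t) from by
        rw [cf.lin.map_sub]; funext n; simp [sim, g, P352X.EB.Sg.act], cf.md] at a
      exact lt_of_not_ge fun q => absurd a (not_lt.2 (mul_nonneg cf.pos.le q))
    · rw [e, g.toSg.img_pre, ← mul_assoc, ← mul_assoc, u1, one_mul, mul_assoc, u1, mul_one]
      exact hY
  generalize Lg.W R hs hL y = U at *
  have a1 : ∀ x, U * (star U * x) = x := fun x => by rw [← mul_assoc, u1, one_mul]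
  have a2 : ∀ x, star U * (Γ * x) = Γ * (star U * x) := fun x => by
    rw [← mul_assoc, ← mul_assoc, ← mul_one (star U * Γ), ← u1, ← mul_assoc, mul_assoc (star U),
      gU, ← mul_assoc, u2, one_mul]
  intro Z hZ
  have z : star U * Z * U ∈ tw Γ (𝒩 (cc O)) := by
    obtain ⟨Y, hY, e | e⟩ := hZ
    · exact ⟨_, k Y hY, .inl (by simp only [e, mul_add, add_mul, mul_assoc, a2, gU])⟩
    · refine ⟨_, k Y hY, .inr ?_⟩
      simp only [e, mul_sub, sub_mul, mul_assoc, a2, ← gU, gg g2, g2, mul_one, one_mul]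
  have c := (mem_cmt (tw_star g2 (gs h.toGr h.ext))).1 m _ z
  have e' : X = U * X0 * star U := by rw [← e, mul_assoc, u1, mul_one]
  calc Z * X = U * (star U * Z * U * X0) * star U := by rw [e']; simp only [mul_assoc, a1]
    _ = _ := by rw [c, e']; simp only [mul_assoc, a1, u1, mul_one]

/-- twisted wedge duality -/
def TD (Γ : Completion D →L[ℂ] Completion D) (𝒩 : Set V → VonNeumannAlgebra (Completion D)) : Prop :=
  ∀ a b X, IsNull a → IsNull b → mdot a b = 1 → X ∈ (𝒩 (Wdg a b 0)).commutant →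
    X + Γ * X * Γ ∈ 𝒩 (Wdg b a 0) ∧ (X - Γ * X * Γ) * Γ ∈ 𝒩 (Wdg b a 0)

theorem dr (der : Gnr R A) : Dr R := fun m v => by
  have := L72.der der m v
  simp only [H246.bas_eq m] at this
  exact this

theorem lngN (g : Gr R G) (vac : G R.vac = R.vac)
    (add : ∀ r r' (c : ℝ) X X' v, IsSim r X → IsSim r' X' →
      A (fun z => X z + c • X' z) v = A X v + (c : ℂ) • A X' v) (der : Gnr R A)
    (h : CntF R ∨ MfA R ∧ FSL R) (e : LEB R) : ∃ Γ, LNg R G A Γ (N R) := by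
  have r := dr der
  obtain ⟨Γ, ex⟩ := ex (ι ∘ₗ Ad.L g.herm) ι (fun _ => rfl) Completion.denseRange_coe ⟨1, fun v => by
    rw [one_mul, LinearMap.comp_apply, ni, ni]
    exact (nG g v).le⟩
  have cm : ∀ S, ∀ Y ∈ WS R S, Y ∈ (N R S).commutant := fun S Y hY =>
    VonNeumannAlgebra.mem_commutant_iff.2 fun X hX => ((mem_cmt ws_star).1 hX Y hY).symm
  exact ⟨Γ, g, vac, add, der, ex, fun _ _ _ => Le.aff r e,
    fun S S' k X hX => (mem_cmt ws_star).2 fun Y hY => (mem_cmt ws_star).1 hX Y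
      fun B f P' a b => hY B f P' a ⟨b.1, b.2.1, b.2.2.trans k⟩,
    fun s L y S X hX hs hL => (cov2 g h hs hL y X hX).imp fun _ k =>
      ⟨k.1, DFunLike.congr_fun k.2⟩,
    fun _ => gam2 g ex, fun a b X ha hb _ hX => (loc2 g ex r e ha hb hX).imp (cm _ _) (cm _ _)⟩

/-- **the twisted dual algebra** -/
theorem lg1 (g : Gr Q G) (sub : IsEnl R Q) (der : Gnr Q A) (h : LNg R G A Γ (N R)) (l : LEB R)
    (td : TD Γ (N R))
    (b : ∀ B, Q.fld B → ∀ f, In Set.univ f → ∃ k, Bk (dL (dr h.der)) k (B f))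
    (n : O ∈ nhds 0) (bd : Bornology.IsBounded O) : Lg1 Q G A Γ O (cmt (tw Γ (N R (cc O)))) := by
  have g2 := Lg.g2 g h.ext
  have s := gs g h.ext
  have u : Trf Q = Trf R := by
    funext O M W
    unfold Trf P352R.P.Ue
    rw [sub.U]
  refine ⟨g, sub.vac ▸ h.vac, h.add, der, h.ext, n, bd, fun B f hB hf => ?_, fun X hX =>
    (mem_cmt (tw_star g2 s)).2 (tw_gam g2 ((mem_cmt (tw_star g2 s)).1 hX)),
    fun a c ha hc hac X x Y y => ?_⟩
  · obtain ⟨B', -, ad⟩ := fad hB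
    refine ⟨_, ad f hf.1, fun Y hY v w => ?_⟩
    have k := klein g2 s (h.gam _) hY
    have q := af2 g h.toGr sub h.ext _ l b k.1 k.2 (ev g2 Y) (od g2 Y) hB hf (ad f hf.1)
    have q1 := q.1 v w
    have q2 := q.2 v w
    rw [mul_assoc _ Γ, g2, mul_one] at q2
    simp only [ContinuousLinearMap.add_apply, ContinuousLinearMap.sub_apply, inner_add_right,
      inner_sub_right] at q1 q2
    show ⟪ι _, Y (ι v)⟫_ℂ = ⟪ι w, Y (ι _)⟫_ℂ
    linear_combination (1 / 2 : ℂ) * q1 + (1 / 2 : ℂ) * q2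
  · rw [u] at x y
    have x' := tw_cm g2 (tr h (fun _ p _ q => P352X.Ap.wdg_opp hc ha p q) x)
    have x1 := (td a c _ ha hc hac x'.1).1
    have x2 := (td a c _ ha hc hac x'.2).2
    have m : X ∈ N R (Wdg c a 0) := half g2 (half g2 (by
      convert add_mem x1 x2 using 1
      simp only [mul_add, add_mul, mul_sub, sub_mul, mul_assoc, gg g2, g2, mul_one]
      abel))
    have y' := tr h (fun _ p _ q => P352X.Ap.wdg_opp ha hc p q) y
    exact ⟨y' _ ⟨X, m, .inl rfl⟩, y' _ ⟨X, m, .inr rfl⟩⟩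

end Vale.Agent.P352R.Tg
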